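import Crest.Agent.X212.Lns95.Tw1
import Crest.Agent.X212.Lns95.As0
import Crest.Agent.X212.Hd28.Exs
import Crest.Agent.X212.Add46.Dif
import Crest.Agent.X212.Add46.Rad
import Crest.Agent.X212.Num99.Defs
import Crest.Agent.X212.Wrd81.LocN
import Crest.Agent.X212.Mp86.C0G

/-!
# Row 212, FLIP (helper68): the flat filler of the flipped line; the numbers at level one
-/

set_option autoImplicit false
set_option linter.unusedSectionVars false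
noncomputable section
open scoped Manifold ContDiff Topology
open Set Function Filter MeasureTheory

namespace Crest.Agent.X212.Flp68
open An M Nd18 Rf65 Lns95 Lix26 Qab60 Rdc90 Lx95 Num99
open Tmp64 (AdmOn Eq0 admOn_univ)
open Wz78 (fL)

variable {κ lam : Type} [Fintype κ] [Fintype lam] [DecidableEq lam]

variable (κ lam) in
/-- **the gauge half**: a flat point of the conjugate line with the same limit -/
def FlipStmt : Prop := ∀ (Y : Mf 3) [CompactSpace Y.M] (D : YD Y.I Y.M κ (lam ⊕ lam)) (Z : Mf 4)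
  (B B' : Base Z.M (Option κ) (lam ⊕ lam)) (G G' : Geo Z.I Z.M (Option κ) (lam ⊕ lam))
  (K : Nk D B G) (K' : Nk D B' G') (Ω : Set Z.M) (c c₁ : Cfg Z.M (Option κ) (lam ⊕ lam) 0)
  (ξ : Z.M → c.m.A) (β : YC Y.M κ (lam ⊕ lam)) (d : Mdl K Ω), Same K K' → B'.P = B.P → B'.o = B.o →
  G'.F = G.F → d.OK → B'.OK Z.I → G'.OK B' → (∀ x ∈ Ω, ∀ s, fL B' G' x s = -fL B G x s) →
  Ab B G Ω c ξ → (∀ x ∈ Ω, c.m.p2 B x (c.m.Fg G.F c.W x) = 0) →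
  IntegrableOn (c.m.kd B G.F c.W) Ω G.F.μ → ∫ x in Ω, c.m.kd B G.F c.W x ∂G.F.μ = 1 → Bs D β →
  K.Lim c.con β 1 atTop → AdmOn c₁ B' G' Ωᶜ →
  ∃ n : Cfg Z.M (Option κ) (lam ⊕ lam) 0, n.Adm B' G' ∧ (∀ x ∈ Ω, n.m.Fg G'.F n.W x = 0) ∧
    ∀ e, K'.ELim e n.con β 1 atTop

section nk
variable {Y : Mf 3} [CompactSpace Y.M] {D : YD Y.I Y.M κ (lam ⊕ lam)} {Z : Mf 4}
  {B B' : Base Z.M (Option κ) (lam ⊕ lam)} {G G' : Geo Z.I Z.M (Option κ) (lam ⊕ lam)}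
  {K : Nk D B G} {K' : Nk D B' G'}

/-- the neck `K'` in the chart of `K` -/
theorem exists_re (p : K'.p = K.p) (q : K'.q = K.q) (e : EqOn K'.ψ K.ψ K.ψ.source)
    (hF : G'.F = G.F) : ∃ L : Nk D B' G', Same K L ∧ Wrd81.SameN L K' :=
  have s : ∀ {x}, x ∈ K.ψ.source → x ∈ K'.ψ.source := fun h => by rwa [K'.src, p, q, ← K.src]
  ⟨⟨K.p, K.q, K.ψ, K.tm, K.len, K.src, K.tgt, K.cont, K.tm_ψ, hF ▸ K.iso,
    fun a b x h => e h ▸ K'.P a b x (s h), fun a b c d x h => e h ▸ K'.o a b c d x (s h),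
    fun x h => e h ▸ K'.l x (s h), K'.il, fun a x h => e h ▸ K'.a a x (s h)⟩,
    ⟨rfl, rfl, rfl, rfl, rfl⟩, p, q, e⟩

theorem FlipStmt.re (H : FlipStmt κ lam) (p : K'.p = K.p) (q : K'.q = K.q)
    (e : EqOn K'.ψ K.ψ K.ψ.source) {Ω : Set Z.M} {r : ℕ} {c : Cfg Z.M (Option κ) (lam ⊕ lam) r}
    {c₁ : Cfg Z.M (Option κ) (lam ⊕ lam) 0} {ξ : Z.M → c.m.A} {β : YC Y.M κ (lam ⊕ lam)}
    {d : Mdl K Ω} (hP : B'.P = B.P) (ho : B'.o = B.o) (hF : G'.F = G.F) (hd : d.OK) (hB : B'.OK Z.I)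
    (hG : G'.OK B') (fl : ∀ x ∈ Ω, ∀ s, fL B' G' x s = -fL B G x s) (A : Ab B G Ω c ξ)
    (a : ∀ x ∈ Ω, c.m.p2 B x (c.m.Fg G.F c.W x) = 0) (i : IntegrableOn (c.m.kd B G.F c.W) Ω G.F.μ)
    (k : ∫ x in Ω, c.m.kd B G.F c.W x ∂G.F.μ = 1) (hβ : Bs D β) (l : K.Lim c.con β 1 atTop)
    (a₁ : c₁.Adm B' G') : ∃ n : Cfg Z.M (Option κ) (lam ⊕ lam) 0, n.Adm B' G' ∧
      (∀ x ∈ Ω, n.m.Fg G'.F n.W x = 0) ∧ ∀ e, K'.ELim e n.con β 1 atTop :=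
  let ⟨L, s, s'⟩ := exists_re p q e hF
  let ⟨n, k1, k2, k3⟩ := H _ _ _ _ _ _ _ K L Ω c.con c₁ ξ β d s hP ho hF hd hB hG fl
    ⟨⟨A.adm.ok, A.adm.conn, contMDiff_const, fun _ => map_zero _, .inl rfl⟩, A.rd, fun _ _ => rfl⟩
    a i k hβ l ((admOn_univ.2 a₁).mono (subset_univ _))
  ⟨n, k1, k2, fun e => s'.elim (k3 e)⟩

end nk

section job
variable {X : Mf 4} {A : Type} [Fintype A] {M : Mark X A κ} {W : World M} {N : ML M lam}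

/-- configurations exist -/
theorem exists_adm {Λ : Lns W N} (hW : W.Nrm) (hΛ : Λ.Nrm) {m c : M.Cl} (hm : cylW c ⊆ m.1)
    {p : Prm A} (hO : p ∈ M.O c.1) :
    ∃ x : Cfg (W.Z c).M (Option κ) (lam ⊕ lam) 0, x.Adm (Λ.B m c) (Λ.G m c p) := by
  let d : M.Cl := ⟨{a ∈ c.1 | M.pin a}, c.2.mono (sep_subset _ _)⟩
  have u : M.Up d c := ⟨sep_subset _ _, fun x h k => ⟨h, k⟩⟩
  have cp := Cyl58.caps_compact (c := d) W.toCaps fun _ h => h.2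
  obtain ⟨μ, k⟩ := Hd28.exists_md (W.Z d).dim (Λ.B_ok m d)
  have k' := Pj41.cmM_ok (W.up_oe u).contMDiff k
  rw [← hΛ.B hW u fun x h => hm ⟨h.1, fun e => h.2 ⟨h.1, e⟩⟩] at k'
  exact Hd28.adm_of_md (Λ.B_ok m c) (Λ.G_ok m hO) k'

theorem same_w {N' : ML M lam} (Λ : Lns W N) (Λ' : Lns W N') (m c : M.Cl) (p : Prm A) :
    (Λ'.B m c).P = (Λ.B m c).P ∧ (Λ'.B m c).o = (Λ.B m c).o ∧ (Λ'.G m c p).F = (Λ.G m c p).F :=
  ⟨rfl, rfl, rfl⟩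

variable {Wi A' h : Type} [Fintype A'] [DecidableEq A'] [Fintype h] {r n : ℕ} {Λ : Lns W N}
  {J : Job Wi Λ A' h r n} {c : M.Cl} {y : J.Obc c} {π : Reg A}

/-- anti-self-dual pieces -/
theorem asd_ea (hO : J.Θ y.s ∈ M.O c.1) (a : y.x.Adm (J.B c) (J.G c y.s)) (hπ : M.sys.Piece c.1 π)
    (i : IntegrableOn y.kd (W.pc c π) (J.G c y.s).F.μ) (e : EA 0 y π) :
    ∀ z ∈ W.pc c π, y.x.m.p2 (J.B c) z (y.x.m.Fg (J.G c y.s).F y.x.W z) = 0 := fun z hz => by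
  have o := (Cyl58.isClopen_pc W.toCaps hπ).isOpen
  have hG := Λ.G_ok J.m hO
  have hB := Λ.B_ok J.m c
  have i1 : IntegrableOn (fun z => ‖y.x.m.p2 (J.B c) z (y.x.m.Fg (J.G c y.s).F y.x.W z)‖ ^ 2)
      (W.pc c π) (J.G c y.s).F.μ :=
    ((e.int.sub (i.const_mul (128 * Real.pi ^ 2))).const_mul (1 / 2)).congr (.of_forall fun z => by
      simp only [Pi.sub_apply, Wz78.norm_Fg_sq hG a.conn hB]; ring)
  have := Cht98.openPos (J.G c y.s).F.toPre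
  have f := ((((Std94.sm_p2 hB a.ok).continuous.clm_apply
    (Mp86.sm_Fg hB hG a.ok a.conn).continuous).norm.pow 2).continuousOn (s := W.pc c π))
  simpa using Measure.eqOn_open_of_ae_eq ((integral_eq_zero_iff_of_nonneg (fun _ => sq_nonneg _)
    i1).1 (le_antisymm (by simpa using e.le) (integral_nonneg fun _ => sq_nonneg _))) o f
    continuousOn_const hz

theorem kd_fl (f : Fl y π) : ∀ z ∈ W.pc c π, y.kd z = 0 := fun z hz => by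
  simp [Md.kd, f z hz]

theorem kap_fl (f : Fl y π) : y.kap (W.pc c π) = 0 :=
  setIntegral_eq_zero_of_forall_eq_zero (kd_fl f)

end job

section scene
open G75 Ins26 Ins26.On
variable {Lm : LM κ lam} {S : Scene Lm} (hS : S.OK) (D : S.Dat) (l : S.ls) (i : S.L)
  {m c : S.M.Cl} {p : Prm S.A} (ha : Act m c l.1 (some false) p) (H : LH Lm)
include hS ha H

/-- the curvature of the flipped line -/
theorem fl_neg : ∀ x ∈ Om D c l, ∀ s, fL ((D.Λ (S.fl l i)).B m c) ((D.Λ (S.fl l i)).G m c p) x s =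
    -fL ((D.Λ i).B m c) ((D.Λ i).G m c p) x s := fun z hz r => by
  obtain ⟨L, hk⟩ := H.lok
  obtain ⟨x, hx, rfl⟩ := (ph_img hS D l i).ge hz
  have e : FZ D m c p (S.fl l i) _ = (-FZ D m c p i) _ :=
    Dr59.pm_inj (Met55.pd_ld (ph_src hS D l i ha hx)) (by
      rw [Dr59.pm_neg, Pi.neg_apply, pm_FZ hS D l _ ha L hx, pm_FZ hS D l _ ha L hx, hS.sg l l.2]
      exact F_neg L _ hx (by rw [(hk _).1, (hk _).1]; cases S.sg l i <;> rfl))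
  rw [fL_eq D l _ ha, fL_eq D l _ ha]
  exact (congrArg (Num57.e2 · _ _) e).trans (by simp [Num57.e2, Qab60.c2, Num57.k2])

theorem geo (hF : FlipStmt κ lam) (hG : Geo2Stmt Lm) (hm : cylW c ⊆ m.1) {Wi Wi' : Type}
    {Y : Xs Wi κ lam} {Y' : Xs Wi' κ lam} (e : nx Y' = nx Y)
    {g : Y.Y.M ≃ₘ^∞⟮Y.Y.I, (S.M.bn l).Y.I⟯ (S.M.bn l).Y.M}
    {g' : Y'.Y.M ≃ₘ^∞⟮Y'.Y.I, (S.M.bn l).Y.I⟯ (S.M.bn l).Y.M} (eg : HEq g' g)
    {K : Nk Y.D ((D.Λ i).B m c) ((D.Λ i).G m c p)}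
    {K' : Nk Y'.D ((D.Λ (S.fl l i)).B m c) ((D.Λ (S.fl l i)).G m c p)} (hY : Y.C.OK)
    (hK : IsNk l.1 (some false) g K) (hK' : IsNk l.1 (some false) g' K') {r : ℕ}
    {x : Cfg (D.W.Z c).M (Option κ) (lam ⊕ lam) r} {ξ : (D.W.Z c).M → x.m.A}
    {β : YC Y.Y.M κ (lam ⊕ lam)} (A : Ab ((D.Λ i).B m c) ((D.Λ i).G m c p) (Om D c l) x ξ)
    (a : ∀ z ∈ Om D c l, x.m.p2 ((D.Λ i).B m c) z (x.m.Fg ((D.Λ i).G m c p).F x.W z) = 0)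
    (I : IntegrableOn (x.m.kd ((D.Λ i).B m c) ((D.Λ i).G m c p).F x.W) (Om D c l)
      ((D.Λ i).G m c p).F.μ)
    (k : ∫ z in Om D c l, x.m.kd ((D.Λ i).B m c) ((D.Λ i).G m c p).F x.W z
      ∂((D.Λ i).G m c p).F.μ = 1) (hβ : Bs Y.D β) (L : K.Lim x.con β 1 atTop) :
    ∃ (x' : Cfg (D.W.Z c).M (Option κ) (lam ⊕ lam) 0) (β' : YC Y'.Y.M κ (lam ⊕ lam)),
      x'.Adm ((D.Λ (S.fl l i)).B m c) ((D.Λ (S.fl l i)).G m c p) ∧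
      (∀ z ∈ Om D c l, x'.m.Fg ((D.Λ (S.fl l i)).G m c p).F x'.W z = 0) ∧ HEq β' β ∧ Bs Y'.D β' ∧
      ∀ e, K'.ELim e x'.con β' 1 atTop := by
  obtain ⟨d, hd, -⟩ := hG S D i l m c p Wi _ _ K hS ha hY hK
  obtain ⟨x₁, h1⟩ := exists_adm D.nrm (D.lnrm (S.fl l i)) hm ha.2.2.1
  have e1 := hK'.lo.trans hK.lo.symm
  have e2 := hK'.hi.trans hK.hi.symm
  have q := fun z => Cht98.isNk_ψ (q := z) ha hK
  have q' := fun z => Cht98.isNk_ψ (q := z) ha hK'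
  obtain ⟨Y, C, N₁, t⟩ := Y
  obtain ⟨Y', C', N₂, t'⟩ := Y'
  cases e
  cases eg
  obtain ⟨s1, s2, s3⟩ := same_w (D.Λ i) (D.Λ (S.fl l i)) m c p
  obtain ⟨x', k1, k2, k3⟩ := hF.re (K := K) (K' := K') e1 e2 (fun z hz =>
    (q' z (by rw [Nk.J, e1, e2]; exact K.mem_src.1 hz)).trans (q z (K.mem_src.1 hz)).symm) s1 s2 s3 hd
    ((D.Λ _).B_ok m c) ((D.Λ _).G_ok m ha.2.2.1) (fl_neg hS D l i ha H) A a I k hβ L h1
  exact ⟨x', β, k1, k2, .rfl, hβ, k3⟩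

omit ha
variable {D l i} {Wi A' h : Type} [Fintype A'] [DecidableEq A'] [Fintype h] {r n : ℕ}
  {J : Job Wi (D.Λ i) A' h r n} {G : Ink3.XG Empty (S.N (S.fl l i))} {δ : ℝ} {z : J.Obc c}

/-- **the flat filler of the twin** -/
theorem fil (hF : FlipStmt κ lam) (hG : Geo2Stmt Lm) (hJ : J.OK)
    (t : Twin J (twJ J (D.Λ (S.fl l i)) G) l) (hm : cylW c ⊆ J.m.1)
    (hl : l.1 ∈ c.1) (h0 : 0 < δ) (g : Go δ z {hp l.1 false}) {ξ : (D.W.Z c).M → z.x.m.A}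
    (A : Ab (J.B c) (J.G c z.s) (D.W.pc c (hp l.1 false)) z.x ξ) (e : EA 0 z (hp l.1 false))
    (k : kI z l.1 = 1) : ∃ z' : (twJ J (D.Λ (S.fl l i)) G).Obc c, z'.s = z.s ∧
      Go δ z' {hp l.1 false} ∧ Fl z' (hp l.1 false) ∧ HEq (z'.β l false) (z.β l false) := by
  classical
  have ha : Act J.m c l.1 (some false) (J.Θ z.s) := ⟨hS.lsp l l.2, g.br, g.O, hl⟩
  have hπ := piece hS l hl
  have I := g.int
  rw [An.un_one] at I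
  have a := asd_ea g.O A.adm hπ I e
  have mem : (⟨⟨l, hl, ha.1⟩, false⟩ : Ed c) ∈ EdP c {hp l.1 false} := ⟨_, rfl, Kl48.hp_self⟩
  obtain ⟨d, d1, d2⟩ := g.lim _ mem ha
  rw [kI, Job.Obc.kap] at k
  rw [pc_eq hS D l hl] at A a I k
  obtain ⟨x', β', k1, k2, k3, k4, k5⟩ := geo hS D l i ha H hF hG hm t.xs t.g (hJ.xs l).1
    (hJ.nk _ _ _ _ ha) (G.isNk _ _ _ _ _ _ ha) A a I k
    (g.bs _ mem) (Add46.elim_lim (b := true) (h0.trans d1) d2)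
  let β : ∀ a, YC (G.xs a).Y.M κ (lam ⊕ lam) := update (fun _ => ⟨⟨0, 0, 0, 0, 0⟩, 0, 0, 0⟩) l.1 β'
  have eβ : β l = β' := update_self _ _ _
  have f : ∀ j ∈ EdP c {hp l.1 false}, j = ⟨⟨l, hl, ha.1⟩, false⟩ := by
    rintro ⟨⟨a, _⟩, b⟩ ⟨_, rfl, k⟩
    obtain ⟨rfl, rfl⟩ := Kl48.hp_eq.1 k
    rfl
  rw [← pc_eq hS D l hl] at k2
  rw [← eβ] at k3 k4 k5
  let z' : (twJ J (D.Λ (S.fl l i)) G).Obc c := ⟨z.s, x', ∅, 0, fun a _ => β a, 1, 0, 0, 0⟩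
  have f' : Fl z' (hp l.1 false) := k2
  refine ⟨z', rfl, ⟨g.br, g.O, ⟨k1.ok, k1.conn, contMDiff_const, fun _ => map_zero _⟩,
    fun j hj => ?_, fun j hj hb => ?_, ?_⟩, f', k3⟩
  · obtain rfl := f j hj
    exact k4
  · obtain rfl := f j hj
    exact ⟨δ + 1, lt_add_one _, k5 _⟩
  · rw [An.un_one]
    exact (integrableOn_congr_fun (kd_fl f') (Cyl58.isClopen_pc _ hπ).isOpen.measurableSet).2
      integrableOn_zero

omit hS in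
/-- **CLAUSE ONE** -/
theorem one (L : IxL κ (lam ⊕ lam) 8) (hF : FlipStmt κ lam) (hG : Geo2Stmt Lm) (fa : FaS Lm)
    (fd : FdS Lm) : OneS Lm := fun S D i Wi A' h _ _ _ r n J c l hS hJ hm hl hN py cv => by
  obtain ⟨G, t⟩ := twin_ex hS l hJ (i' := S.fl l i) (.inr rfl)
  have hJ' := twJ_ok (Λ' := D.Λ (S.fl l i)) hJ G
  have tr : ∀ {T : Xs Wi κ lam} {T' : Xs Empty κ lam}, nx T' = nx T → Ink3.Nil T.N → PY T.D 0 →
      (∃ cv : Rod53.S3' → T.Y.M, Cv4 cv) → (Ink3.Nil T'.N ∧ T'.ty = 0) ∧ PY T'.D 0 ∧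
        ∃ cv : Rod53.S3' → T'.Y.M, Cv4 cv := by
    rintro ⟨Y, C, N₁, t⟩ ⟨Y', C', N₂, t'⟩ e a b d
    cases e
    exact ⟨⟨a, funext fun w => w.elim⟩, b, d⟩
  obtain ⟨n', py', cv'⟩ := tr t.xs hN.1 py cv
  have hc : l.1 ∈ cylW c := ⟨hl, hS.lsp l l.2⟩
  have hπ := piece hS l hl
  obtain ⟨a, a0, h1⟩ := AllL.and fa fd S D _ _ _ _ _ _ _ c l hS hJ' hm hl n' py' cv'
  obtain ⟨b, b0, h2⟩ := relF hS l L (Add46.rad Lm L) (fun _ => Ixc61.chStmt (by norm_num)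
    (fun _ _ _ _ _ X => X.fred) Top36.kapStmt) (Inv14.pInv _ _ (by norm_num)) hJ hJ' (.inr rfl) t hl
    hl hN.1 ⟨_, py⟩
  obtain ⟨d, d0, h3⟩ := Add46.loc L D.nrm (D.lnrm _) hJ hm hc hπ hN.1 ⟨_, py⟩
  obtain ⟨e, e0, h4⟩ := Add46.loc L D.nrm (D.lnrm _) hJ' hm hc hπ n'.1 ⟨_, py'⟩
  refine ⟨min (min a b) (min d e), by positivity, fun δ ⟨h0, hδ⟩ z g ξ A ea k => ?_⟩
  simp only [le_min_iff] at hδ
  obtain ⟨z', e1, g', f, e2⟩ := fil hS H hF hG hJ t hm hl h0 g A ea k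
  have bs : Bs (J.xs l).D (z.β l false) := g.bs (⟨l, hc⟩, false) ⟨_, rfl, Kl48.hp_self⟩
  obtain ⟨-, q1, q2⟩ := (h2 δ ⟨h0, hδ.1.2⟩).num (congrArg (fun s => (J.Θ s).1) e1) g g' e2
    ⟨_, _, Eqv71.ceq_refl bs.ok.B bs.ok.G (Add46.ad0_cy bs.adm) isOpen_univ⟩
    ((h3 δ ⟨h0, hδ.2.1⟩).ex z g) ((h4 δ ⟨h0, hδ.2.2⟩).ex z' g')
  have p1 := (h1 δ ⟨h0, hδ.1.1⟩).1 z' g' f
  have p2 := (h1 δ ⟨h0, hδ.1.1⟩).2 z' g' f
  rw [k, show kI z' l = 0 from kap_fl f] at q1 q2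
  have r1 : ia δ z (hp l.1 false) = ia δ z' (hp l.1 false) + 8 := by
    exact_mod_cast (show (ia δ z (hp l.1 false) : ℝ) = ia δ z' (hp l.1 false) + 8 by linarith)
  have r2 : idr δ z (hp l.1 false) = idr δ z' (hp l.1 false) - 2 := by
    exact_mod_cast (show (idr δ z (hp l.1 false) : ℝ) = idr δ z' (hp l.1 false) - 2 by linarith)
  omega

end scene

end Crest.Agent.X212.Flp68
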